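import Vale.Agent.P011.H984.Full.BrgI
import Vale.Agent.P011.D4H.ZFin
import Vale.Agent.P011.D4W.Fin

/-!
The clauses for trialitarian groups in the new letters.
-/

namespace Vale.Agent.P011.H984

open Vale.Agent.P011.H900

theorem oldT : OldT := fun _ _ _ _ _ _ _ h => D4H.tt_noIndex h

theorem oldI : OldI := fun _ _ _ _ _ _ _ _ h => D4W.ti_noIndex h

variable {F : Type} [Field F] [NumberField F] {r s i : F → F} {a b c d q : F}

/-- **Trialitarian groups over cyclic cubic extensions.** -/
theorem d3 (hD : Dat [r, s] r s a b c d q) :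
    NoIndex fun f : Oc a b → Oc a b => Tri c r f ∧ Twi c r s d q f := d3_of oldT hD

/-- **Trialitarian groups over noncyclic cubic extensions.** -/
theorem d4 (hD : Dat [r, s, i] r s a b c d q) (hi : Aut 2 i) (hsi : ∀ x, s (i x) = i (s x))
    (hri : ∀ x, r (i (r x)) = i x) (hid : i d = d) (hiq : r (i q) = q) :
    NoIndex fun f : Oc a b → Oc a b => Tri c r f ∧ Twi c r s d q f ∧ Swp i f :=
  d4_of oldI hD hi hsi hri hid hiq

end Vale.Agent.P011.H984
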