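import Vale.Agent.P011.H984.Full.Iso
import Vale.Agent.P011.H518.R8.Solv
import Vale.Agent.P011.F3.Main

/-!
# Number fields: anisotropic unitary groups of the algebras with zero divisors
-/

open Module Matrix TensorProduct Topology

set_option linter.unusedSectionVars false

namespace Vale.Agent.P011.H984

open Vale.Agent.P011.H738 (SUA Anis Place)
open Vale.Agent.P011.H732F (GK HA IsDiagonal IsOpenPreimage Adiv)
open Vale.Agent.P011S

section

variable {k K A Ω : Type} [Field k] [Field K] [StarRing K] [Ring A] [StarRing A]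
  [Algebra k K] [Algebra k A] [Algebra K A] [IsScalarTower k K A] [StarModule K A] {n : ℕ}
  [Field Ω] [Algebra K Ω]

/-- If all subgroups of finite index are trivial and no place is of division type. -/
theorem clause_of_top {f : A →ₐ[K] Matrix (Fin n) (Fin n) Ω}
    (hS : ∀ v : Place k, v ∉ Adiv k K A)
    (h : ∀ N : Subgroup (SUA f), N.index ≠ 0 → N = ⊤) :
    ∃ δ : GK f →* HA A n (Adiv k K A), IsDiagonal δ ∧ DenseRange δ ∧
      ∀ N : Subgroup (GK f), N.index ≠ 0 → IsOpenPreimage δ N ∧ N = ⊤ := by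
  have hsub : ∀ x y : HA A n (Adiv k K A), x = y := fun x y =>
    funext fun v => absurd v.2 (hS v)
  refine ⟨1, fun g v => absurd v.2 (hS v), fun y => ?_, fun N hN => ?_⟩
  · exact subset_closure ⟨1, hsub _ _⟩
  · have h1 : N = ⊤ := h N hN
    refine ⟨⟨⊤, isOpen_univ, ?_, fun _ => inferInstance⟩, h1⟩
    rw [h1]
    exact (Subgroup.comap_top _).symm

/-- The degree of the corner is at least two unless `A` is split. -/
theorem Fm.two_le_deg {P : Pj A} {m d : ℕ} (F : Fm P m) (hnd : n = m * d) (hn : 0 < n)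
    (hd : finrank K P.Cr = d ^ 2) (hns : ¬ ∃ m : ℕ, Nonempty (A ≃ₐ[K] Matrix (Fin m) (Fin m) K)) :
    2 ≤ d := by
  by_contra hcon
  have hd0 : d ≠ 0 := by
    rintro rfl
    omega
  have hd1 : d = 1 := by omega
  subst hd1
  rw [mul_one] at hnd
  subst hnd
  rw [one_pow] at hd
  have h1 : Function.Bijective (algebraMap K P.Cr) :=
    Algebra.finrank_eq_one_iff_bijective_algebraMap.mp hd
  let e : K ≃ₐ[K] P.Cr := AlgEquiv.ofBijective (Algebra.ofId K P.Cr) h1
  exact hns ⟨_, ⟨(F.mxA K).trans e.symm.mapMatrix⟩⟩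

variable [NumberField k]

/-- **Number fields, algebras with zero divisors**: there is no proper subgroup of finite index. -/
theorem top_of_index (hA : Anis k K A n) (hn : 0 < n) (hdiv : ∃ x : A, x ≠ 0 ∧ ¬ IsUnit x)
    (hns : ¬ ∃ m : ℕ, Nonempty (A ≃ₐ[K] Matrix (Fin m) (Fin m) K))
    (f : A →ₐ[K] Matrix (Fin n) (Fin n) Ω) (N : Subgroup (SUA f)) (hN : N.index ≠ 0) : N = ⊤ := by
  have hKA : FiniteDimensional K A := FiniteDimensional.of_finrank_pos (by
    rw [hA.finrank_eq]; positivity)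
  have hkK : FiniteDimensional k K := (H519.quad hA.fixed hA.star_ne).1
  have hNK : NumberField K := NumberField.of_module_finite k K
  have := hA.central
  have := hA.simple
  obtain ⟨P⟩ := exists_pj (K := K) hA.anisotropic
  obtain ⟨m, ⟨F⟩⟩ := exists_fm K hA.anisotropic P
  obtain ⟨d, hnd, hd⟩ := F.exists_deg hA.finrank_eq
  have hd2 : 2 ≤ d := F.two_le_deg hnd hn hd hns
  have hm : 2 ≤ m := F.two_le hdiv
  have hcen : Algebra.IsCentral K P.Cr := F.isCentral hA.central
  have hfin : FiniteDimensional K P.Cr := FiniteDimensional.of_finrank_pos (by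
    rw [hd]; positivity)
  obtain ⟨M, _, _, _, _, ⟨f'⟩⟩ := H268.exists_galois_split' (K := K) (A := P.Cr) hd
  let Φ := F.iso f f' hn hA.finrank_eq hnd
  have h1 := (F3.all_clauses hA.star_ne hd2 hd f' hm F.HH (F.isAnisotropic hA.anisotropic)).1
    (N.map Φ.toMonoidHom) (by rwa [Subgroup.index_map_of_bijective Φ.bijective])
  rw [eq_top_iff]
  intro g _
  have h2 : Φ g ∈ N.map Φ.toMonoidHom := h1 ▸ Subgroup.mem_top _
  obtain ⟨g', hg', hgg⟩ := h2
  rwa [Φ.injective hgg] at hg'

/-- **Number fields, algebras with zero divisors**: the conjecture. -/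
theorem clause_div (hA : Anis k K A n) (hn : 0 < n) (hdiv : ∃ x : A, x ≠ 0 ∧ ¬ IsUnit x)
    (hns : ¬ ∃ m : ℕ, Nonempty (A ≃ₐ[K] Matrix (Fin m) (Fin m) K))
    (f : A →ₐ[K] Matrix (Fin n) (Fin n) Ω) :
    ∃ δ : GK f →* HA A n (Adiv k K A), IsDiagonal δ ∧ DenseRange δ ∧
      ∀ N : Subgroup (GK f), N.index ≠ 0 → IsOpenPreimage δ N ∧ N = ⊤ :=
  clause_of_top (fun v => H518.R8.adiv_empty hA hn.ne' hdiv v)
    fun N hN => top_of_index hA hn hdiv hns f N hN

end

end Vale.Agent.P011.H984
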