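import Vale.Agent.P011.H900.Brg2
import Vale.Agent.P011.D4H.YDefs
import Mathlib.FieldTheory.Normal.Basic
import Mathlib.FieldTheory.IsAlgClosed.Basic
import Mathlib.Analysis.Complex.Polynomial.Basic

/-!
The clauses for trialitarian groups in the new letters, from the old ones.
-/

open Module IntermediateField

namespace Vale.Agent.P011.H984

open Vale.Agent.P011.MPQ Vale.Agent.P011.D4 Vale.Agent.P011.D4T Vale.Agent.P011.D4I
  Vale.Agent.P011.D4H Vale.Agent.P011.H900

/-- Cyclic cubic extensions, in the old letters. -/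
def OldT : Prop :=
  ∀ {k E : Type} [Field k] [NumberField k] [Field E] [Algebra k E] (ρ σ : E ≃ₐ[k] E) (α q : E)
    (a b c : kˣ), IsDataR ρ σ α q a b c → D4T.NoIndex (TT ρ σ α q a b c)

/-- Noncyclic cubic extensions, in the old letters. -/
def OldI : Prop :=
  ∀ {k L E : Type} [Field k] [NumberField k] [Field L] [NumberField L] [Field E] [Algebra k L]
    [Algebra k E] [Algebra L E] [IsScalarTower k L E] (ρ σ ι : E ≃ₐ[k] E) (α : E)
    (a b c : kˣ) (q : Lˣ), IsDataIR ρ σ ι α a b c q →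
    D4T.NoIndex (TI ρ σ ι α (algebraMap L E (q : L)) a b c)

section emb

variable {k F : Type} [Field k] [Field F] [Algebra k F]

/-- The real embedding below. -/
theorem exists_tau {w : F →+* ℂ} (h : ∀ y : k, (w (algebraMap k F y)).im = 0) :
    ∃ τ : k →+* ℝ, ∀ y, w (algebraMap k F y) = τ y := by
  refine ⟨{ toFun := fun y => (w (algebraMap k F y)).re
            map_one' := by rw [map_one, map_one, Complex.one_re]
            map_mul' := fun x y => by
              rw [map_mul, map_mul, Complex.mul_re, h x, zero_mul, sub_zero]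
            map_zero' := by rw [map_zero, map_zero, Complex.zero_re]
            map_add' := fun x y => by rw [map_add, map_add, Complex.add_re] }, fun y => ?_⟩
  exact Complex.ext (by simp) (by simpa using h y)

/-- An extension of a real embedding. -/
theorem exists_ext [Algebra.IsAlgebraic k F] (τ : k →+* ℝ) :
    ∃ w : F →+* ℂ, ∀ y, w (algebraMap k F y) = τ y := by
  let := (Complex.ofRealHom.comp τ).toAlgebra
  let f : F →ₐ[k] ℂ := IsAlgClosed.lift
  exact ⟨f.toRingHom, fun y => f.commutes y⟩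

/-- Two embeddings with the same restriction. -/
theorem exists_gal [Normal k F] {w w0 : F →+* ℂ}
    (h : ∀ y : k, w (algebraMap k F y) = w0 (algebraMap k F y)) :
    ∃ g : F ≃ₐ[k] F, ∀ x, w x = w0 (g x) := by
  let := w0.toAlgebra
  let := (w0.comp (algebraMap k F)).toAlgebra
  have : IsScalarTower k F ℂ := IsScalarTower.of_algebraMap_eq fun _ => rfl
  let f : F →ₐ[k] ℂ := { w with commutes' := h }
  refine ⟨Normal.algHomEquivAut k ℂ F f, fun x => ?_⟩
  have h1 : (Normal.algHomEquivAut k ℂ F).symm (Normal.algHomEquivAut k ℂ F f) = f :=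
    Equiv.symm_apply_apply _ _
  exact (DFunLike.congr_fun h1 x).symm

end emb

section grp

variable {k F : Type} [Field k] [Field F] [Algebra k F] {a b c : kˣ}

theorem div_of {m : List (F → F)} {l : List (F → F)} (hm : ∀ r ∈ m, ∃ ρ : F ≃ₐ[k] F, ⇑ρ = r)
    (h : Dvn l m ((up F a : Fˣ) : F) ((up F b : Fˣ) : F) ((up F c : Fˣ) : F)) :
    Oct.Division a b c := by
  intro x hx
  have hi : Function.Injective (algebraMap k F) := (algebraMap k F).injective
  have h1 := h.2 (⟨algebraMap k F x.fst.re, algebraMap k F x.fst.imI, algebraMap k F x.fst.imJ,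
    algebraMap k F x.fst.imK⟩, ⟨algebraMap k F x.snd.re, algebraMap k F x.snd.imI,
    algebraMap k F x.snd.imJ, algebraMap k F x.snd.imK⟩) (fun r hr => by
      obtain ⟨ρ, rfl⟩ := hm r hr
      simp [ap]) (by
      rw [re_om_oc]
      have h2 := congrArg (algebraMap k F) hx
      rw [map_zero, Oct.norm, nrd, nrd] at h2
      rw [← h2]
      simp [up])
  have h3 := congrArg (fun y : Oc ((up F a : Fˣ) : F) ((up F b : Fˣ) : F) => y.1) h1
  have h4 := congrArg (fun y : Oc ((up F a : Fˣ) : F) ((up F b : Fˣ) : F) => y.2) h1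
  ext1
  · ext
    · exact hi (by simpa using congrArg (fun z => z.re) h3)
    · exact hi (by simpa using congrArg (fun z => z.imI) h3)
    · exact hi (by simpa using congrArg (fun z => z.imJ) h3)
    · exact hi (by simpa using congrArg (fun z => z.imK) h3)
  · ext
    · exact hi (by simpa using congrArg (fun z => z.re) h4)
    · exact hi (by simpa using congrArg (fun z => z.imI) h4)
    · exact hi (by simpa using congrArg (fun z => z.imJ) h4)
    · exact hi (by simpa using congrArg (fun z => z.imK) h4)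

/-- The space. -/
abbrev oL (a b c : kˣ) : Oc ((up F a : Fˣ) : F) ((up F b : Fˣ) : F) ≃ OctL F a b c :=
  (oe (up F a) (up F b) (up F c)).symm

theorem pc_apply (φ : Equiv.Perm (Oc ((up F a : Fˣ) : F) ((up F b : Fˣ) : F)))
    (x : Oc ((up F a : Fˣ) : F) ((up F b : Fˣ) : F)) :
    (oL a b c).permCongr φ (oL a b c x) = oL a b c (φ x) := by
  rw [Equiv.permCongr_apply, Equiv.symm_apply_apply]

theorem oL_add (x y : Oc ((up F a : Fˣ) : F) ((up F b : Fˣ) : F)) :
    oL a b c (x + y) = oL a b c x + oL a b c y := rfl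

theorem oL_smul (t : F) (x : Oc ((up F a : Fˣ) : F) ((up F b : Fˣ) : F)) :
    oL a b c (t • x) = t • oL a b c x := rfl

theorem oL_tri (ρ : F ≃ₐ[k] F) (x y : Oc ((up F a : Fˣ) : F) ((up F b : Fˣ) : F)) :
    oL a b c (om ((up F c : Fˣ) : F) (ap ρ (oc x)) (ap ρ (ap ρ (oc y)))) =
      tri ρ (oL a b c x) (oL a b c y) := rfl

theorem oL_twi (ρ σ : F ≃ₐ[k] F) (d q : F) (x : Oc ((up F a : Fˣ) : F) ((up F b : Fˣ) : F)) :
    oL a b c (om ((up F c : Fˣ) : F) (om ((up F c : Fˣ) : F) (H900.me d q) (ap σ x))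
      (H900.me d (q * ρ q))) = Jt ρ σ d q (oL a b c x) := rfl

theorem oL_swp (ι : F ≃ₐ[k] F) (x : Oc ((up F a : Fˣ) : F) ((up F b : Fˣ) : F)) :
    oL a b c (ap ι (oc x)) = omap ι (star (oL a b c x)) := rfl

theorem tt_iff (ρ σ : F ≃ₐ[k] F) (d q : F)
    (φ : Equiv.Perm (Oc ((up F a : Fˣ) : F) ((up F b : Fˣ) : F))) :
    (Tri ((up F c : Fˣ) : F) ρ φ ∧ Twi ((up F c : Fˣ) : F) ρ σ d q φ) ↔
      IsTriT ρ σ d q ((oL a b c).permCongr φ) := by
  constructor
  · rintro ⟨⟨h1, h2⟩, h3⟩
    have h0 : φ 0 = 0 := by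
      have h3 := h1 1 0 0
      rw [one_smul, one_smul, add_zero] at h3
      exact left_eq_add.mp h3
    refine ⟨fun x y => ?_, fun t x => ?_, fun x y => ?_, fun x => ?_⟩
    · obtain ⟨x, rfl⟩ := (oL a b c).surjective x
      obtain ⟨y, rfl⟩ := (oL a b c).surjective y
      rw [← oL_add, pc_apply, pc_apply, pc_apply, ← oL_add]
      have h3 := h1 1 x y
      rw [one_smul, one_smul] at h3
      rw [h3]
    · obtain ⟨x, rfl⟩ := (oL a b c).surjective x
      rw [← oL_smul, pc_apply, pc_apply, ← oL_smul]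
      have h3 := h1 t x 0
      rw [h0, add_zero, add_zero] at h3
      rw [h3]
    · obtain ⟨x, rfl⟩ := (oL a b c).surjective x
      obtain ⟨y, rfl⟩ := (oL a b c).surjective y
      rw [← oL_tri, pc_apply, pc_apply, pc_apply, ← oL_tri, h2]
    · obtain ⟨x, rfl⟩ := (oL a b c).surjective x
      rw [← oL_twi, pc_apply, pc_apply, ← oL_twi, h3]
  · rintro ⟨h1, h2, h3, h4⟩
    refine ⟨⟨fun t x y => ?_, fun x y => ?_⟩, fun x => ?_⟩
    · apply (oL a b c).injective
      rw [← pc_apply, oL_add, oL_smul, h1, h2, pc_apply, pc_apply, oL_add, oL_smul]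
    · apply (oL a b c).injective
      rw [← pc_apply, oL_tri, h3, pc_apply, pc_apply, oL_tri]
    · apply (oL a b c).injective
      rw [← pc_apply, oL_twi, h4, pc_apply, oL_twi]

theorem ti_iff (ρ σ ι : F ≃ₐ[k] F) (d q : F)
    (φ : Equiv.Perm (Oc ((up F a : Fˣ) : F) ((up F b : Fˣ) : F))) :
    (Tri ((up F c : Fˣ) : F) ρ φ ∧ Twi ((up F c : Fˣ) : F) ρ σ d q φ ∧ Swp ι φ) ↔
      IsTriI ρ σ ι d q ((oL a b c).permCongr φ) := by
  rw [← and_assoc, tt_iff]
  refine and_congr_right fun _ => ⟨fun h x => ?_, fun h x => ?_⟩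
  · obtain ⟨x, rfl⟩ := (oL a b c).surjective x
    rw [← oL_swp, pc_apply, pc_apply, ← oL_swp, h]
  · apply (oL a b c).injective
    rw [← pc_apply, oL_swp, h, pc_apply, oL_swp]

end grp

section gal

variable {k F : Type} [Field k] [Field F] [Algebra k F] [FiniteDimensional k F] [IsGalois k F]

/-- The action of the Galois group on the elements fixed by the central involution. -/
theorem act2 {ρ σ : F ≃ₐ[k] F} (hcl : Subgroup.closure {g : F ≃ₐ[k] F | ⇑g ∈ [⇑ρ, ⇑σ]} = ⊤)
    (h3 : ∀ x, ρ (ρ (ρ x)) = x) (hc : ∀ x, ρ (σ x) = σ (ρ x)) (g : F ≃ₐ[k] F) :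
    ∃ i : ℕ, ∀ x, σ x = x → g x = ρ^[i] x := by
  have hit : ∀ (i : ℕ) (x : F), σ x = x → σ (ρ^[i] x) = ρ^[i] x := by
    intro i
    induction i with
    | zero => exact fun x hx => hx
    | succ i ih =>
      intro x hx
      rw [Function.iterate_succ_apply', ← hc, ih x hx]
  have hg : g ∈ Subgroup.closure {g : F ≃ₐ[k] F | ⇑g ∈ [⇑ρ, ⇑σ]} := by rw [hcl]; trivial
  induction hg using Subgroup.closure_induction with
  | mem g hg =>
    simp only [List.mem_cons, List.not_mem_nil, or_false, Set.mem_ofPred_eq] at hg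
    rcases hg with hg | hg
    · exact ⟨1, fun x _ => congrFun hg x⟩
    · exact ⟨0, fun x hx => (congrFun hg x).trans hx⟩
  | one => exact ⟨0, fun x _ => rfl⟩
  | mul g h _ _ hg hh =>
    obtain ⟨i, hi⟩ := hg
    obtain ⟨j, hj⟩ := hh
    refine ⟨i + j, fun x hx => ?_⟩
    rw [AlgEquiv.mul_apply, hj x hx, hi _ (hit j x hx), Function.iterate_add_apply]
  | inv g _ hg =>
    obtain ⟨i, hi⟩ := hg
    refine ⟨2 * i, fun x hx => ?_⟩
    have h4 : ∀ (i : ℕ) (x : F), ρ^[i] (ρ^[2 * i] x) = x := by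
      intro i x
      rw [← Function.iterate_add_apply, show i + 2 * i = 3 * i by ring, Function.iterate_mul]
      have h5 : (ρ : F → F)^[3] = id := funext h3
      rw [h5, Function.iterate_id]
      rfl
    have h5 := hi _ (hit (2 * i) x hx)
    rw [h4] at h5
    calc g⁻¹ x = g⁻¹ (g (ρ^[2 * i] x)) := by rw [h5]
      _ = ρ^[2 * i] x := by rw [← AlgEquiv.mul_apply, inv_mul_cancel]; rfl

end gal

section

variable {F : Type} [Field F] [NumberField F]

/-- **Cyclic cubic extensions.** -/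
theorem d3_of (H : OldT) {r s : F → F} {a b c d q : F} (hD : Dat [r, s] r s a b c d q) :
    H900.NoIndex fun f : Oc a b → Oc a b => Tri c r f ∧ Twi c r s d q f := by
  obtain ⟨hr, hs, hc, hd, hda, hrd, hsd, hsq, hnq, hdef, w0, hw0, hwa, hwq⟩ := hD
  have hA : IsA r := hr.isA three_ne_zero
  have hB : IsA s := hs.isA two_ne_zero
  obtain ⟨k, _, _, _, hfin, hgal, hfix, haut, hcl⟩ := exists_base [r, s] (by simpa using ⟨hA, hB⟩)
  obtain ⟨ha0, hb0, hc0⟩ := hd.ne (by simpa using ⟨hA, hB⟩)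
  have hr' := hd.1 r (by simp)
  have hs' := hd.1 s (by simp)
  obtain ⟨a, rfl⟩ := unit_of hfix (by simpa using ⟨hr'.1, hs'.1⟩) ha0
  obtain ⟨b, rfl⟩ := unit_of hfix (by simpa using ⟨hr'.2.1, hs'.2.1⟩) hb0
  obtain ⟨c, rfl⟩ := unit_of hfix (by simpa using ⟨hr'.2.2, hs'.2.2⟩) hc0
  obtain ⟨ρ, rfl⟩ := haut r (by simp)
  obtain ⟨σ, rfl⟩ := haut s (by simp)
  have h6 : finrank k F = 6 := rank6 hcl hr.exists_ne hr.three hs.exists_ne hs.two hc
  have hRl : ∀ {w : F →+* ℂ} {τ : k →+* ℝ}, (∀ y, w (algebraMap k F y) = τ y) →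
      Rl [⇑ρ, ⇑σ] w := by
    intro w τ h x hx
    obtain ⟨y, rfl⟩ := hfix x hx
    rw [h, Complex.ofReal_im]
  have hk : ∀ (w : F →+* ℂ), Rl [⇑ρ, ⇑σ] w → ∀ y : k, (w (algebraMap k F y)).im = 0 := by
    intro w hw y
    exact hw _ (by simp)
  have hre : ∀ {w : F →+* ℂ} {τ : k →+* ℝ}, (∀ y, w (algebraMap k F y) = τ y) → ∀ u : kˣ,
      (w ((up F u : Fˣ) : F)).re = τ u := by
    intro w τ h u
    have h1 : w ((up F u : Fˣ) : F) = τ u := h u
    rw [h1, Complex.ofReal_re]
  obtain ⟨τ, hτ⟩ := exists_tau (hk w0 hw0)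
  -- the embeddings over `τ`
  have hq : ∀ w : F →+* ℂ, (∀ t, w (algebraMap k F t) = τ t) → 0 < (w q).re := by
    intro w hw
    obtain ⟨g, hg⟩ := exists_gal (k := k) (w := w) (w0 := w0) fun y => by rw [hw, hτ]
    obtain ⟨i, hi⟩ := act2 hcl hr.three hc g
    rw [hg, hi q hsq]
    apply hwq
    -- the conjugate embedding
    obtain ⟨g', hg'⟩ := exists_gal (k := k) (w := (starRingEnd ℂ).comp w0) (w0 := w0)
      fun y => by rw [RingHom.comp_apply, hτ, Complex.conj_ofReal]
    obtain ⟨j, hj⟩ := act2 hcl hr.three hc g'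
    have hit : ∀ (i : ℕ) (x : F), σ x = x → σ (ρ^[i] x) = ρ^[i] x := by
      intro i
      induction i with
      | zero => exact fun x hx => hx
      | succ i ih =>
        intro x hx
        rw [Function.iterate_succ_apply', ← hc, ih x hx]
    have h3 : (ρ : F → F)^[3] = id := funext hr.three
    obtain ⟨x, hx⟩ : ∃ x, x = ρ^[i] q := ⟨_, rfl⟩
    have hσx : σ x = x := by rw [hx]; exact hit i q hsq
    rw [← hx]
    have h1 : g' (g' x) = x := by
      apply w0.injective
      rw [← hg', RingHom.comp_apply, ← hg', RingHom.comp_apply, Complex.conj_conj]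
    have h2 : ρ^[j] (ρ^[j] x) = x := by
      rw [hj x hσx, hj _ (hit j x hσx)] at h1
      exact h1
    have h4 : ρ^[j] x = x := by
      have h5 : ρ^[j] (ρ^[j] (ρ^[j] x)) = x := by
        rw [← Function.iterate_add_apply, ← Function.iterate_add_apply,
          show j + j + j = 3 * j by ring, Function.iterate_mul, h3, Function.iterate_id]
        rfl
      rwa [h2] at h5
    have h5 : (starRingEnd ℂ) (w0 x) = w0 x := by
      have h6 := hg' x
      rwa [hj x hσx, h4] at h6
    exact Complex.conj_eq_iff_im.mp h5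
  have hdat : IsDataR ρ σ d q a b c :=
    { deg := h6
      ρ1 := hr.exists_ne
      ρ3 := hr.three
      σ2 := hs.two
      comm := fun x => (hc x).symm
      α2 := hda
      ρα := hrd
      σα := hsd
      σq := hsq
      nq := hnq
      div := div_of haut hd
      hdef := by
        intro τ' hτ'
        obtain ⟨w, hw⟩ := exists_ext (F := F) τ'
        have h1 := hdef w (hRl hw) (by rwa [hre hw])
        rwa [hre hw, hre hw] at h1
      cpt := ⟨τ, by rwa [← hre hτ], hq⟩ }
  exact noIndex_of (oL a b c) (TT ρ σ d q a b c) _ (tt_iff ρ σ d q) (H ρ σ d q a b c hdat)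

end

end Vale.Agent.P011.H984
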