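import Vale.Agent.P011.H984.Full.BrgD

/-!
The clauses for trialitarian groups over noncyclic cubic extensions.
-/

open Module IntermediateField

namespace Vale.Agent.P011.H984

open Vale.Agent.P011.MPQ Vale.Agent.P011.D4 Vale.Agent.P011.D4T Vale.Agent.P011.D4I
  Vale.Agent.P011.D4H Vale.Agent.P011.H900

section four

/-- The group generated by two commuting involutions. -/
theorem card4 {G : Type} [Group G] [Finite G] {s t : G} (hs : s ^ 2 = 1) (ht : t ^ 2 = 1)
    (hc : Commute s t) (h1 : s ≠ 1) (h2 : t ≠ 1) (h3 : s * t ≠ 1) :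
    Nat.card (Subgroup.closure {s, t}) = 4 := by
  classical
  have hsm : s ∈ Subgroup.closure {s, t} := Subgroup.subset_closure (by simp)
  have htm : t ∈ Subgroup.closure {s, t} := Subgroup.subset_closure (by simp)
  let s' : Subgroup.closure {s, t} := ⟨s, hsm⟩
  let t' : Subgroup.closure {s, t} := ⟨t, htm⟩
  have hs' : s' ^ 2 = 1 := Subtype.ext hs
  have ht' : t' ^ 2 = 1 := Subtype.ext ht
  have hc' : Commute s' t' := Subtype.ext hc
  have hne1 : s' ≠ 1 := fun h => h1 (congrArg Subtype.val h)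
  have hne2 : t' ≠ 1 := fun h => h2 (congrArg Subtype.val h)
  have hne3 : s' * t' ≠ 1 := fun h => h3 (congrArg Subtype.val h)
  have hst : s' ≠ t' := by
    intro h
    apply hne3
    rw [h, ← pow_two, ht']
  have hcl : Subgroup.closure (((↑) : Subgroup.closure {s, t} → G) ⁻¹' {s, t}) = ⊤ :=
    Subgroup.closure_closure_coe_preimage
  have hle : Nat.card (Subgroup.closure {s, t}) ≤ 4 := by
    have h5 := card_le hcl ((Finset.range 2 ×ˢ Finset.range 2).image fun i => s' ^ i.1 * t' ^ i.2)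
      (Finset.mem_image.2 ⟨(0, 0), by simp, by simp⟩) (by
        intro x hx y hy
        obtain ⟨i, hi, rfl⟩ := Finset.mem_image.1 hy
        rw [Finset.mem_product, Finset.mem_range, Finset.mem_range] at hi
        rcases hx with hx | hx
        · rw [show x = s' from Subtype.ext hx, ← mul_assoc, ← pow_succ',
            pow_eq_pow_mod (i.1 + 1) hs']
          exact Finset.mem_image.2 ⟨((i.1 + 1) % 2, i.2), by
            rw [Finset.mem_product, Finset.mem_range, Finset.mem_range]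
            exact ⟨Nat.mod_lt _ (by norm_num), hi.2⟩, rfl⟩
        · rw [show x = t' from Subtype.ext hx, ← mul_assoc, (hc'.symm.pow_right i.1).eq,
            mul_assoc, ← pow_succ', pow_eq_pow_mod (i.2 + 1) ht']
          exact Finset.mem_image.2 ⟨(i.1, (i.2 + 1) % 2), by
            rw [Finset.mem_product, Finset.mem_range, Finset.mem_range]
            exact ⟨hi.1, Nat.mod_lt _ (by norm_num)⟩, rfl⟩)
    exact h5.trans (Finset.card_image_le.trans (by simp))
  refine le_antisymm hle ?_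
  have h6 : ({1, s', t', s' * t'} : Finset (Subgroup.closure {s, t})).card = 4 := by
    rw [Finset.card_insert_of_notMem, Finset.card_insert_of_notMem,
      Finset.card_insert_of_notMem, Finset.card_singleton]
    · rw [Finset.mem_singleton]
      intro h
      exact hne1 (right_eq_mul.mp h)
    · rw [Finset.mem_insert, Finset.mem_singleton]
      rintro (h | h)
      · exact hst h
      · exact hne2 (left_eq_mul.mp h)
    · rw [Finset.mem_insert, Finset.mem_insert, Finset.mem_singleton]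
      rintro (h | h | h)
      · exact hne1 h.symm
      · exact hne2 h.symm
      · exact hne3 h.symm
  have := Fintype.ofFinite (Subgroup.closure {s, t})
  rw [Nat.card_eq_fintype_card, ← h6]
  exact Finset.card_le_univ _

end four

section gal

variable {k F : Type} [Field k] [Field F] [Algebra k F] [FiniteDimensional k F] [IsGalois k F]

/-- The relations in the Galois group. -/
theorem rel_iota {ρ ι : F ≃ₐ[k] F} (h : ∀ x, ι (ρ x) = ρ (ρ (ι x))) (j : ℕ) (x : F) :
    ι (ρ^[j] x) = ρ^[2 * j] (ι x) := by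
  induction j with
  | zero => rfl
  | succ j ih =>
    rw [Function.iterate_succ_apply', h, ih, show 2 * (j + 1) = (2 * j).succ.succ from rfl,
      Function.iterate_succ_apply', Function.iterate_succ_apply']

theorem rank12_le {ρ σ ι : F ≃ₐ[k] F}
    (hcl : Subgroup.closure {g : F ≃ₐ[k] F | ⇑g ∈ [⇑ρ, ⇑σ, ⇑ι]} = ⊤)
    (h3 : ∀ x, ρ (ρ (ρ x)) = x) (h2 : ∀ x, σ (σ x) = x) (h2' : ∀ x, ι (ι x) = x)
    (hc : ∀ x, ρ (σ x) = σ (ρ x)) (hc' : ∀ x, σ (ι x) = ι (σ x))
    (hir : ∀ x, ι (ρ x) = ρ (ρ (ι x))) : finrank k F ≤ 12 := by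
  classical
  have p3 := pow3 h3
  have p2 := pow2 h2
  have p2' := pow2 h2'
  have hσρ : Commute σ ρ := by
    ext x
    exact (hc x).symm
  have hσι : Commute ι σ := by
    ext x
    exact (hc' x).symm
  have hιρ : ∀ j : ℕ, ι * ρ ^ j = ρ ^ (2 * j) * ι := by
    intro j
    induction j with
    | zero => simp
    | succ j ih =>
      have h4 : ι * ρ = ρ ^ 2 * ι := by
        ext x
        rw [AlgEquiv.mul_apply, AlgEquiv.mul_apply, pow_two, AlgEquiv.mul_apply]
        exact hir x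
      rw [pow_succ, ← mul_assoc, ih, mul_assoc, h4, ← mul_assoc, ← pow_add]
      rfl
  have h5 := rank_le hcl ((Finset.range 3 ×ˢ Finset.range 2 ×ˢ Finset.range 2).image
      fun i => ρ ^ i.1 * (σ ^ i.2.1 * ι ^ i.2.2))
    (Finset.mem_image.2 ⟨(0, 0, 0), by simp, by simp⟩) (by
      intro s hs t ht
      obtain ⟨i, hi, rfl⟩ := Finset.mem_image.1 ht
      rw [Finset.mem_product, Finset.mem_product, Finset.mem_range, Finset.mem_range,
        Finset.mem_range] at hi
      simp only [List.mem_cons, List.not_mem_nil, or_false, Set.mem_ofPred_eq] at hs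
      rcases hs with hs | hs | hs
      · rw [show s = ρ from DFunLike.coe_injective hs, ← mul_assoc, ← pow_succ',
          pow_eq_pow_mod (i.1 + 1) p3]
        exact Finset.mem_image.2 ⟨((i.1 + 1) % 3, i.2), by
          rw [Finset.mem_product, Finset.mem_product, Finset.mem_range, Finset.mem_range,
            Finset.mem_range]
          exact ⟨Nat.mod_lt _ (by norm_num), hi.2⟩, rfl⟩
      · rw [show s = σ from DFunLike.coe_injective hs, ← mul_assoc, (hσρ.pow_right i.1).eq,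
          mul_assoc, ← mul_assoc σ, ← pow_succ', pow_eq_pow_mod (i.2.1 + 1) p2]
        exact Finset.mem_image.2 ⟨(i.1, (i.2.1 + 1) % 2, i.2.2), by
          rw [Finset.mem_product, Finset.mem_product, Finset.mem_range, Finset.mem_range,
            Finset.mem_range]
          exact ⟨hi.1, Nat.mod_lt _ (by norm_num), hi.2.2⟩, rfl⟩
      · rw [show s = ι from DFunLike.coe_injective hs, ← mul_assoc, hιρ,
          mul_assoc, ← mul_assoc ι, (hσι.pow_right i.2.1).eq, mul_assoc (σ ^ i.2.1),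
          ← pow_succ', pow_eq_pow_mod (i.2.2 + 1) p2', pow_eq_pow_mod (2 * i.1) p3]
        exact Finset.mem_image.2 ⟨(2 * i.1 % 3, i.2.1, (i.2.2 + 1) % 2), by
          rw [Finset.mem_product, Finset.mem_product, Finset.mem_range, Finset.mem_range,
            Finset.mem_range]
          exact ⟨Nat.mod_lt _ (by norm_num), hi.2.1, Nat.mod_lt _ (by norm_num)⟩, rfl⟩)
  exact h5.trans (Finset.card_image_le.trans (by simp))

/-- The orbit of `q`. -/
theorem act3 {ρ σ ι : F ≃ₐ[k] F}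
    (hcl : Subgroup.closure {g : F ≃ₐ[k] F | ⇑g ∈ [⇑ρ, ⇑σ, ⇑ι]} = ⊤)
    (h3 : ∀ x, ρ (ρ (ρ x)) = x) (h2 : ∀ x, ι (ι x) = x)
    (hc : ∀ x, ρ (σ x) = σ (ρ x)) (hir : ∀ x, ι (ρ x) = ρ (ρ (ι x))) {q : F} (hσ : σ q = q)
    (hq : ρ (ι q) = q) (g : F ≃ₐ[k] F) :
    (∀ j, ∃ i, g (ρ^[j] q) = ρ^[i] q) ∧ ∀ j, ∃ i, g (ρ^[i] q) = ρ^[j] q := by
  have hit : ∀ j : ℕ, σ (ρ^[j] q) = ρ^[j] q := by
    intro j
    induction j with
    | zero => exact hσ
    | succ j ih => rw [Function.iterate_succ_apply', ← hc, ih]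
  have hιq : ι q = ρ^[2] q := by
    calc ι q = ρ (ρ (ρ (ι q))) := (h3 _).symm
      _ = ρ^[2] q := by rw [hq]; rfl
  have hι : ∀ j : ℕ, ι (ρ^[j] q) = ρ^[2 * j + 2] q := by
    intro j
    rw [rel_iota hir, hιq, Function.iterate_add_apply]
  have hg : g ∈ Subgroup.closure {g : F ≃ₐ[k] F | ⇑g ∈ [⇑ρ, ⇑σ, ⇑ι]} := by rw [hcl]; trivial
  induction hg using Subgroup.closure_induction with
  | mem g hg =>
    simp only [List.mem_cons, List.not_mem_nil, or_false, Set.mem_ofPred_eq] at hg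
    rcases hg with hg | hg | hg
    · rw [hg]
      refine ⟨fun j => ⟨j + 1, (Function.iterate_succ_apply' _ _ _).symm⟩, fun j => ⟨j + 2, ?_⟩⟩
      rw [show j + 2 = j.succ.succ from rfl, Function.iterate_succ_apply',
        Function.iterate_succ_apply', h3]
    · rw [hg]
      exact ⟨fun j => ⟨j, hit j⟩, fun j => ⟨j, hit j⟩⟩
    · rw [hg]
      refine ⟨fun j => ⟨2 * j + 2, hι j⟩, fun j => ⟨2 * j + 2, ?_⟩⟩
      rw [← hι, h2]
  | one => exact ⟨fun j => ⟨j, rfl⟩, fun j => ⟨j, rfl⟩⟩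
  | mul g h _ _ hg hh =>
    refine ⟨fun j => ?_, fun j => ?_⟩
    · obtain ⟨i, hi⟩ := hh.1 j
      obtain ⟨l, hl⟩ := hg.1 i
      exact ⟨l, by rw [AlgEquiv.mul_apply, hi, hl]⟩
    · obtain ⟨i, hi⟩ := hg.2 j
      obtain ⟨l, hl⟩ := hh.2 i
      exact ⟨l, by rw [AlgEquiv.mul_apply, hl, hi]⟩
  | inv g _ hg =>
    refine ⟨fun j => ?_, fun j => ?_⟩
    · obtain ⟨i, hi⟩ := hg.2 j
      exact ⟨i, by rw [← hi, ← AlgEquiv.mul_apply, inv_mul_cancel]; rfl⟩
    · obtain ⟨i, hi⟩ := hg.1 j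
      exact ⟨i, by rw [← hi, ← AlgEquiv.mul_apply, inv_mul_cancel]; rfl⟩

/-- The fields of a noncyclic cubic extension. -/
theorem exists_L {ρ σ ι : F ≃ₐ[k] F}
    (hcl : Subgroup.closure {g : F ≃ₐ[k] F | ⇑g ∈ [⇑ρ, ⇑σ, ⇑ι]} = ⊤)
    (h1 : ∃ x, ρ x ≠ x)
    (h3 : ∀ x, ρ (ρ (ρ x)) = x) (h2 : ∀ x, σ (σ x) = x) (h2' : ∀ x, ι (ι x) = x)
    (hc : ∀ x, ρ (σ x) = σ (ρ x)) (hc' : ∀ x, σ (ι x) = ι (σ x))
    (hir : ∀ x, ι (ρ x) = ρ (ρ (ι x))) {d : F} (hd : ρ d = d) (hd' : ι d = d) (hd2 : σ d ≠ d) :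
    ∃ L : IntermediateField k F, finrank k L = 3 ∧ finrank L F = 4 ∧
      ∀ x, x ∈ L ↔ σ x = x ∧ ρ (ι x) = x := by
  have p3 := pow3 h3
  have p2 := pow2 h2
  have hρ1 := ne_one h1
  obtain ⟨τ, hτ⟩ : ∃ τ : F ≃ₐ[k] F, τ = ρ * ι := ⟨_, rfl⟩
  have hτx : ∀ x, τ x = ρ (ι x) := fun x => by rw [hτ]; rfl
  have q2 : τ ^ 2 = 1 := by
    ext x
    rw [pow_two, AlgEquiv.mul_apply, hτx, hτx, hir, h2', h3]
    rfl
  have hστ : Commute σ τ := by
    ext x
    rw [AlgEquiv.mul_apply, AlgEquiv.mul_apply, hτx, hτx, ← hc, hc']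
  have n1 : σ ≠ 1 := ne_one ⟨d, hd2⟩
  have n2 : τ ≠ 1 := by
    intro h
    obtain ⟨x, hx⟩ := h1
    apply hx
    have h4 : ∀ y, ρ (ι y) = y := fun y => by rw [← hτx, h]; rfl
    have h5 : ∀ y, ι y = ρ (ρ y) := fun y => by
      conv_rhs => rw [← h4 y, h3]
    have h6 := h2' x
    rw [h5, h5, h3] at h6
    exact h6
  have n3 : σ * τ ≠ 1 := by
    intro h
    apply hd2
    have h4 : (σ * τ) d = d := by rw [h]; rfl
    rwa [AlgEquiv.mul_apply, hτx, hd', hd] at h4
  have h4 := card4 p2 q2 hστ n1 n2 n3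
  have h12 : finrank k F = 12 := by
    have h5 := rank12_le hcl h3 h2 h2' hc hc' hir
    have h6 := dvd_rank Nat.prime_three hρ1 p3
    have h7 : 4 ∣ finrank k F := by
      rw [← IsGalois.card_aut_eq_finrank, ← h4]
      exact Subgroup.card_subgroup_dvd_card _
    have h8 : 3 * 4 ∣ finrank k F :=
      Nat.Coprime.mul_dvd_of_dvd_of_dvd (by norm_num) h6 h7
    exact le_antisymm h5 (Nat.le_of_dvd finrank_pos h8)
  have h5 : finrank (fixedField (Subgroup.closure {σ, τ})) F = 4 := by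
    rw [finrank_fixedField_eq_card, h4]
  refine ⟨fixedField (Subgroup.closure {σ, τ}), ?_, h5, fun x => ?_⟩
  · have h6 := finrank_mul_finrank k (fixedField (Subgroup.closure {σ, τ})) F
    rw [h5, h12] at h6
    omega
  · rw [mem_fixedField_iff]
    constructor
    · intro h
      refine ⟨h σ (Subgroup.subset_closure (by simp)), ?_⟩
      rw [← hτx]
      exact h τ (Subgroup.subset_closure (by simp))
    · rintro ⟨h6, h7⟩ g hg
      refine Subgroup.closure_induction (p := fun g _ => g x = x) ?_ ?_ ?_ ?_ hg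
      · rintro g (rfl | rfl)
        · exact h6
        · rw [hτx, h7]
      · rfl
      · intro g h _ _ hg hh
        rw [AlgEquiv.mul_apply, hh, hg]
      · intro g _ hg
        calc g⁻¹ x = g⁻¹ (g x) := by rw [hg]
          _ = x := by rw [← AlgEquiv.mul_apply, inv_mul_cancel]; rfl

end gal

section

variable {F : Type} [Field F] [NumberField F]

/-- **Noncyclic cubic extensions.** -/
theorem d4_of (H : OldI) {r s i : F → F} {a b c d q : F} (hD : Dat [r, s, i] r s a b c d q)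
    (hi : Aut 2 i) (hsi : ∀ x, s (i x) = i (s x)) (hri : ∀ x, r (i (r x)) = i x) (hid : i d = d)
    (hiq : r (i q) = q) : H900.NoIndex fun f : Oc a b → Oc a b =>
      Tri c r f ∧ Twi c r s d q f ∧ Swp i f := by
  obtain ⟨hr, hs, hc, hd, hda, hrd, hsd, hsq, hnq, hdef, w0, hw0, hwa, hwq⟩ := hD
  have hA : IsA r := hr.isA three_ne_zero
  have hB : IsA s := hs.isA two_ne_zero
  have hC : IsA i := hi.isA two_ne_zero
  obtain ⟨k, _, _, _, hfin, hgal, hfix, haut, hcl⟩ :=
    exists_base [r, s, i] (by simpa using ⟨hA, hB, hC⟩)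
  obtain ⟨ha0, hb0, hc0⟩ := hd.ne (by simpa using ⟨hA, hB, hC⟩)
  have hr' := hd.1 r (by simp)
  have hs' := hd.1 s (by simp)
  have hi' := hd.1 i (by simp)
  obtain ⟨a, rfl⟩ := unit_of hfix (by simpa using ⟨hr'.1, hs'.1, hi'.1⟩) ha0
  obtain ⟨b, rfl⟩ := unit_of hfix (by simpa using ⟨hr'.2.1, hs'.2.1, hi'.2.1⟩) hb0
  obtain ⟨c, rfl⟩ := unit_of hfix (by simpa using ⟨hr'.2.2, hs'.2.2, hi'.2.2⟩) hc0
  obtain ⟨ρ, rfl⟩ := haut r (by simp)
  obtain ⟨σ, rfl⟩ := haut s (by simp)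
  obtain ⟨ι, rfl⟩ := haut i (by simp)
  have hir : ∀ x, ι (ρ x) = ρ (ρ (ι x)) := fun x => by rw [← hri x, hr.three]
  have hd0 : d ≠ 0 := by
    rintro rfl
    apply ha0
    rw [← hda, zero_pow two_ne_zero]
  have hsd' : σ d ≠ d := by
    rw [hsd]
    intro h
    exact hd0 (neg_eq_self.mp h)
  obtain ⟨L, hL3, hL4, hL⟩ := exists_L hcl hr.exists_ne hr.three hs.two hi.two hc hsi hir hrd hid
    hsd'
  have hRl : ∀ {w : F →+* ℂ} {τ : k →+* ℝ}, (∀ y, w (algebraMap k F y) = τ y) →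
      Rl [⇑ρ, ⇑σ, ⇑ι] w := by
    intro w τ h x hx
    obtain ⟨y, rfl⟩ := hfix x hx
    rw [h, Complex.ofReal_im]
  have hk : ∀ (w : F →+* ℂ), Rl [⇑ρ, ⇑σ, ⇑ι] w → ∀ y : k, (w (algebraMap k F y)).im = 0 := by
    intro w hw y
    exact hw _ (by simp)
  have hre : ∀ {w : F →+* ℂ} {τ : k →+* ℝ}, (∀ y, w (algebraMap k F y) = τ y) → ∀ u : kˣ,
      (w ((up F u : Fˣ) : F)).re = τ u := by
    intro w τ h u
    have h1 : w ((up F u : Fˣ) : F) = τ u := h u
    rw [h1, Complex.ofReal_re]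
  obtain ⟨τ, hτ⟩ := exists_tau (hk w0 hw0)
  have hq0 : q ≠ 0 := by
    rintro rfl
    rw [zero_mul, zero_mul] at hnq
    exact zero_ne_one hnq
  have hqL : q ∈ L := (hL q).2 ⟨hsq, hiq⟩
  let qL : Lˣ := Units.mk0 ⟨q, hqL⟩ fun h => hq0 (congrArg Subtype.val h)
  have hqv : algebraMap L F (qL : L) = q := rfl
  have hNL : NumberField L := NumberField.of_module_finite k L
  have hq : ∀ w : L →+* ℝ, w.comp (algebraMap k L) = τ → 0 < w (qL : L) := by
    intro w hw
    obtain ⟨w', hw'⟩ := exists_ext (F := F) w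
    have h1 : ∀ y : k, w' (algebraMap k F y) = w0 (algebraMap k F y) := by
      intro y
      rw [hτ, IsScalarTower.algebraMap_apply k L F, hw', ← hw]
      rfl
    obtain ⟨g, hg⟩ := exists_gal (k := k) h1
    obtain ⟨j, hj⟩ := (act3 hcl hr.three hi.two hc hir hsq hiq g).1 0
    have h2 : w0 (ρ^[j] q) = w (qL : L) := by
      rw [← hj, ← hw', hqv, hg]
      rfl
    have h3 := hwq j (by rw [h2, Complex.ofReal_im])
    rwa [h2, Complex.ofReal_re] at h3
  have hdat : IsDataIR ρ σ ι d a b c qL :=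
    { L3 := hL3
      E4 := hL4
      ρ1 := hr.exists_ne
      ρ3 := hr.three
      σ2 := hs.two
      ι2 := hi.two
      comm := fun x => (hc x).symm
      σι := hsi
      ιρ := hir
      σL := fun t => ((hL _).1 t.2).1
      ριL := fun t => ((hL _).1 t.2).2
      α2 := hda
      ρα := hrd
      σα := hsd
      ια := hid
      nq := hnq
      div := div_of haut hd
      hdef := by
        intro τ' hτ'
        obtain ⟨w, hw⟩ := exists_ext (F := F) τ'
        have h1 := hdef w (hRl hw) (by rwa [hre hw])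
        rwa [hre hw, hre hw] at h1
      cpt := ⟨τ, by rwa [← hre hτ], hq⟩ }
  exact noIndex_of (oL a b c) (TI ρ σ ι d (algebraMap L F (qL : L)) a b c) _ (ti_iff ρ σ ι d q)
    (H ρ σ ι d a b c qL hdat)

end

end Vale.Agent.P011.H984
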