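import Vale.Agent.P011.H401.Peirce
import Vale.Agent.P011S.Defs2

/-!
# The corner of a minimal projection of a ring with anisotropic involution
-/

open Module Matrix

set_option linter.unusedSectionVars false

namespace Vale.Agent.P011.H984

/-- A minimal projection. -/
structure Pj (A : Type) [Ring A] [StarRing A] where
  e : A
  ee : e * e = e
  se : star e = e
  ne : e ≠ 0
  inv : ∀ x, e * x = x → x * e = x → x ≠ 0 → ∃ y, e * y = y ∧ y * e = y ∧ y * x = e ∧ x * y = e

variable {A : Type} [Ring A] [StarRing A]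

namespace Pj

variable (P : Pj A)

theorem mem_e_star {x : A} (h : P.e * x = x ∧ x * P.e = x) :
    P.e * star x = star x ∧ star x * P.e = star x := by
  constructor
  · have := congrArg star h.2
    rwa [star_mul, P.se] at this
  · have := congrArg star h.1
    rwa [star_mul, P.se] at this

/-- The corner as a non-unital subring. -/
def ns : NonUnitalSubring A where
  carrier := {x | P.e * x = x ∧ x * P.e = x}
  add_mem' := by
    rintro x y ⟨h1, h2⟩ ⟨h3, h4⟩
    exact ⟨by rw [mul_add, h1, h3], by rw [add_mul, h2, h4]⟩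
  zero_mem' := ⟨mul_zero _, zero_mul _⟩
  mul_mem' := by
    rintro x y ⟨h1, h2⟩ ⟨h3, h4⟩
    exact ⟨by rw [← mul_assoc, h1], by rw [mul_assoc, h4]⟩
  neg_mem' := by
    rintro x ⟨h1, h2⟩
    exact ⟨by rw [mul_neg, h1], by rw [neg_mul, h2]⟩

/-- The corner `e A e`. -/
def Cr : Type := P.ns

/-- The element of `A` underlying an element of the corner. -/
def val (x : P.Cr) : A := Subtype.val x

/-- An element of the corner. -/
def cr (x : A) (h : P.e * x = x ∧ x * P.e = x) : P.Cr := ⟨x, h⟩

theorem val_cr (x : A) (h : P.e * x = x ∧ x * P.e = x) : P.val (P.cr x h) = x := rfl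

theorem val_inj {x y : P.Cr} (h : P.val x = P.val y) : x = y := Subtype.ext h

theorem e_val (x : P.Cr) : P.e * P.val x = P.val x := x.2.1

theorem val_e (x : P.Cr) : P.val x * P.e = P.val x := x.2.2

noncomputable instance instNU : NonUnitalRing P.Cr := inferInstanceAs (NonUnitalRing P.ns)

noncomputable instance instRing : Ring P.Cr :=
  { P.instNU with
    one := P.cr P.e ⟨P.ee, P.ee⟩
    one_mul := fun x => P.val_inj (P.e_val x)
    mul_one := fun x => P.val_inj (P.val_e x) }

theorem val_add (x y : P.Cr) : P.val (x + y) = P.val x + P.val y := rfl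
theorem val_sub (x y : P.Cr) : P.val (x - y) = P.val x - P.val y := rfl
theorem val_neg (x : P.Cr) : P.val (-x) = -P.val x := rfl
theorem val_mul (x y : P.Cr) : P.val (x * y) = P.val x * P.val y := rfl
theorem val_zero : P.val 0 = 0 := rfl
theorem val_one : P.val 1 = P.e := rfl

/-- The inclusion as an additive map. -/
def valHom : P.Cr →+ A where
  toFun := P.val
  map_zero' := rfl
  map_add' _ _ := rfl

theorem val_sum {ι : Type} (s : Finset ι) (f : ι → P.Cr) :
    P.val (∑ i ∈ s, f i) = ∑ i ∈ s, P.val (f i) := map_sum P.valHom f s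

instance instNontrivial : Nontrivial P.Cr := ⟨1, 0, fun h => P.ne (congrArg P.val h)⟩

theorem isUnit_or (x : P.Cr) : IsUnit x ∨ x = 0 := by
  by_cases hx : x = 0
  · exact Or.inr hx
  left
  have hx' : P.val x ≠ 0 := fun h => hx (P.val_inj h)
  obtain ⟨y, h1, h2, h3, h4⟩ := P.inv _ (P.e_val x) (P.val_e x) hx'
  exact ⟨⟨x, P.cr y ⟨h1, h2⟩, P.val_inj h4, P.val_inj h3⟩, rfl⟩

noncomputable instance instDiv : DivisionRing P.Cr := DivisionRing.ofIsUnitOrEqZero P.isUnit_or

noncomputable instance instStar : StarRing P.Cr where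
  star x := P.cr (star (P.val x)) (P.mem_e_star x.2)
  star_involutive x := P.val_inj (star_star (P.val x))
  star_mul x y := P.val_inj (star_mul (P.val x) (P.val y))
  star_add x y := P.val_inj (star_add (P.val x) (P.val y))

theorem val_star (x : P.Cr) : P.val (star x) = star (P.val x) := rfl

section alg

variable {K : Type} [Field K] [Algebra K A]

theorem mem_smul (c : K) {x : A} (h : P.e * x = x ∧ x * P.e = x) :
    P.e * (c • x) = c • x ∧ (c • x) * P.e = c • x := by
  rw [mul_smul_comm, smul_mul_assoc, h.1, h.2]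
  exact ⟨rfl, rfl⟩

noncomputable instance instSMul : SMul K P.Cr := ⟨fun c x => P.cr (c • P.val x) (P.mem_smul c x.2)⟩

theorem val_smul (c : K) (x : P.Cr) : P.val (c • x) = c • P.val x := rfl

noncomputable instance instAlg : Algebra K P.Cr where
  algebraMap :=
    { toFun := fun c => c • (1 : P.Cr)
      map_one' := P.val_inj (one_smul K _)
      map_mul' := fun a b => P.val_inj (by
        rw [P.val_smul, P.val_mul, P.val_smul, P.val_smul, P.val_one, smul_mul_smul_comm, P.ee])
      map_zero' := P.val_inj (zero_smul K _)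
      map_add' := fun a b => P.val_inj (add_smul a b _) }
  commutes' c x := P.val_inj (by
    change (c • P.e) * P.val x = P.val x * (c • P.e)
    rw [smul_mul_assoc, mul_smul_comm, P.e_val, P.val_e])
  smul_def' c x := P.val_inj (by
    change c • P.val x = (c • P.e) * P.val x
    rw [smul_mul_assoc, P.e_val])

theorem val_algebraMap (c : K) : P.val (algebraMap K P.Cr c) = c • P.e := rfl

end alg

end Pj

/-- A decomposition of the unit of `A` by orthogonal vectors of `A e`. -/
structure Fm {A : Type} [Ring A] [StarRing A] (P : Pj A) (m : ℕ) where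
  x : Fin m → A
  xe : ∀ i, x i * P.e = x i
  d : Fin m → P.Cr
  hd : ∀ i, P.val (d i) = star (x i) * x i
  d0 : ∀ i, d i ≠ 0
  orth : ∀ i j, i ≠ j → star (x i) * x j = 0
  sum : ∑ i, x i * P.val (d i)⁻¹ * star (x i) = 1

namespace Fm

variable {P : Pj A} {m : ℕ} (F : Fm P m)

theorem ex (i : Fin m) : P.e * star (F.x i) = star (F.x i) := by
  have := congrArg star (F.xe i)
  rwa [star_mul, P.se] at this

theorem xval (i : Fin m) (y : P.Cr) : F.x i * P.val y * P.e = F.x i * P.val y := by
  rw [mul_assoc, P.val_e]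

theorem mem (a : A) (i j : Fin m) : P.e * (star (F.x i) * a * F.x j) = star (F.x i) * a * F.x j ∧
    star (F.x i) * a * F.x j * P.e = star (F.x i) * a * F.x j := by
  constructor
  · rw [← mul_assoc, ← mul_assoc, F.ex]
  · rw [mul_assoc, F.xe]

theorem star_d (i : Fin m) : star (F.d i) = F.d i := P.val_inj (by
  rw [P.val_star, F.hd, star_mul, star_star])

theorem d_val (i : Fin m) (y : P.Cr) : star (F.x i) * (F.x i * P.val y) = P.val (F.d i * y) := by
  rw [← mul_assoc, ← F.hd, ← P.val_mul]

/-- The matrix of an element. -/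
noncomputable def mxf (a : A) : Matrix (Fin m) (Fin m) P.Cr :=
  fun i j => (F.d i)⁻¹ * P.cr (star (F.x i) * a * F.x j) (F.mem a i j)

/-- The element of a matrix. -/
noncomputable def unf (M : Matrix (Fin m) (Fin m) P.Cr) : A :=
  ∑ i, ∑ j, F.x i * P.val (M i j) * P.val (F.d j)⁻¹ * star (F.x j)

theorem val_mxf (a : A) (i j : Fin m) :
    P.val (F.mxf a i j) = P.val (F.d i)⁻¹ * (star (F.x i) * a * F.x j) := rfl

theorem unf_mxf (a : A) : F.unf (F.mxf a) = a := by
  have h1 : (∑ i, F.x i * P.val (F.d i)⁻¹ * star (F.x i)) * a *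
      (∑ j, F.x j * P.val (F.d j)⁻¹ * star (F.x j)) = a := by
    rw [F.sum, one_mul, mul_one]
  rw [unf]
  nth_rewrite 2 [← h1]
  rw [Finset.sum_mul, Finset.sum_mul]
  refine Finset.sum_congr rfl fun i _ => ?_
  rw [Finset.mul_sum]
  refine Finset.sum_congr rfl fun j _ => ?_
  rw [F.val_mxf]
  simp only [mul_assoc]

theorem mxf_unf (M : Matrix (Fin m) (Fin m) P.Cr) : F.mxf (F.unf M) = M := by
  ext k l
  apply P.val_inj
  rw [F.val_mxf, unf, Finset.mul_sum, Finset.sum_mul, Finset.mul_sum, Finset.sum_eq_single k]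
  · rw [Finset.mul_sum, Finset.sum_mul, Finset.mul_sum, Finset.sum_eq_single l]
    · have h1 : star (F.x k) * (F.x k * P.val (M k l) * P.val (F.d l)⁻¹ * star (F.x l)) * F.x l =
          P.val (F.d k * M k l * (F.d l)⁻¹ * F.d l) := by
        rw [P.val_mul, P.val_mul, P.val_mul, F.hd k, F.hd l]
        simp only [mul_assoc]
      rw [h1, ← P.val_mul, mul_assoc (F.d k * M k l), inv_mul_cancel₀ (F.d0 l), mul_one,
        ← mul_assoc, inv_mul_cancel₀ (F.d0 k), one_mul]
    · intro j _ hj
      rw [mul_assoc, mul_assoc (F.x k * P.val (M k j) * P.val (F.d j)⁻¹), F.orth j l hj]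
      rw [mul_zero, mul_zero, mul_zero]
    · intro h
      exact absurd (Finset.mem_univ _) h
  · intro i _ hi
    rw [Finset.mul_sum, Finset.sum_mul, Finset.mul_sum]
    refine Finset.sum_eq_zero fun j _ => ?_
    have h1 : star (F.x k) * (F.x i * P.val (M i j) * P.val (F.d j)⁻¹ * star (F.x j)) = 0 := by
      rw [← mul_assoc, ← mul_assoc, ← mul_assoc, F.orth k i (Ne.symm hi), zero_mul, zero_mul,
        zero_mul]
    rw [h1, zero_mul, mul_zero]
  · intro h
    exact absurd (Finset.mem_univ _) h

theorem mxf_mul (a b : A) : F.mxf (a * b) = F.mxf a * F.mxf b := by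
  ext i k
  apply P.val_inj
  rw [Matrix.mul_apply, P.val_sum, F.val_mxf]
  have h1 : a * b = a * (∑ j, F.x j * P.val (F.d j)⁻¹ * star (F.x j)) * b := by
    rw [F.sum, mul_one]
  rw [h1, Finset.mul_sum, Finset.sum_mul, Finset.mul_sum, Finset.sum_mul, Finset.mul_sum]
  refine Finset.sum_congr rfl fun j _ => ?_
  rw [P.val_mul, F.val_mxf, F.val_mxf]
  simp only [mul_assoc]

theorem mxf_one : F.mxf 1 = 1 := by
  ext i j
  apply P.val_inj
  rw [F.val_mxf, mul_one]
  by_cases h : i = j
  · subst h
    rw [Matrix.one_apply_eq, ← F.hd, ← P.val_mul, inv_mul_cancel₀ (F.d0 i)]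
  · rw [Matrix.one_apply_ne h, F.orth i j h, mul_zero]
    rfl

theorem mxf_add (a b : A) : F.mxf (a + b) = F.mxf a + F.mxf b := by
  ext i j
  apply P.val_inj
  rw [Matrix.add_apply, P.val_add, F.val_mxf, F.val_mxf, F.val_mxf, mul_add, add_mul, mul_add]

/-- The isomorphism of `A` with the ring of matrices. -/
noncomputable def mx : A ≃+* Matrix (Fin m) (Fin m) P.Cr where
  toFun := F.mxf
  invFun := F.unf
  left_inv := F.unf_mxf
  right_inv := F.mxf_unf
  map_mul' := F.mxf_mul
  map_add' := F.mxf_add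

theorem mx_apply (a : A) : F.mx a = F.mxf a := rfl

section alg

variable {K : Type} [Field K] [Algebra K A]

theorem mx_smul (c : K) (a : A) : F.mx (c • a) = c • F.mx a := by
  ext i j
  apply P.val_inj
  rw [Matrix.smul_apply, P.val_smul, F.mx_apply, F.mx_apply, F.val_mxf, F.val_mxf, mul_smul_comm,
    smul_mul_assoc, mul_smul_comm]

variable (K) in
/-- The isomorphism of algebras. -/
noncomputable def mxA : A ≃ₐ[K] Matrix (Fin m) (Fin m) P.Cr :=
  AlgEquiv.ofRingEquiv (f := F.mx) fun c => by
    rw [Algebra.algebraMap_eq_smul_one, F.mx_smul, map_one, Algebra.algebraMap_eq_smul_one]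

theorem mxA_apply (a : A) : F.mxA K a = F.mx a := rfl

end alg

/-- The Gram matrix. -/
noncomputable def HH : Matrix (Fin m) (Fin m) P.Cr := Matrix.diagonal F.d

/-- The inverse of the Gram matrix. -/
noncomputable def HI : Matrix (Fin m) (Fin m) P.Cr := Matrix.diagonal fun i => (F.d i)⁻¹

theorem HH_HI : F.HH * F.HI = 1 := by
  rw [HH, HI, Matrix.diagonal_mul_diagonal]
  rw [show (fun i => F.d i * (F.d i)⁻¹) = fun _ => (1 : P.Cr) from
    funext fun i => mul_inv_cancel₀ (F.d0 i), Matrix.diagonal_one]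

theorem HI_HH : F.HI * F.HH = 1 := by
  rw [HH, HI, Matrix.diagonal_mul_diagonal]
  rw [show (fun i => (F.d i)⁻¹ * F.d i) = fun _ => (1 : P.Cr) from
    funext fun i => inv_mul_cancel₀ (F.d0 i), Matrix.diagonal_one]

theorem HH_star : F.HHᴴ = F.HH := by
  rw [HH, Matrix.diagonal_conjTranspose]
  congr 1
  funext i
  exact F.star_d i

/-- The involution is the adjoint involution of the form. -/
theorem mx_star (a : A) : F.HH * F.mx (star a) = (F.mx a)ᴴ * F.HH := by
  ext i j
  apply P.val_inj
  rw [HH, Matrix.diagonal_mul, Matrix.mul_diagonal, Matrix.conjTranspose_apply, P.val_mul,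
    P.val_mul, P.val_star, F.mx_apply, F.mx_apply, F.val_mxf, F.val_mxf, ← mul_assoc,
    ← P.val_mul, mul_inv_cancel₀ (F.d0 i), P.val_one, star_mul, star_mul, star_mul, star_star]
  have h1 : star (P.val (F.d j)⁻¹) = P.val (F.d j)⁻¹ := by
    rw [← P.val_star, star_inv₀, F.star_d]
  rw [h1]
  have h2 : P.e * (star (F.x i) * star a * F.x j) = star (F.x i) * star a * F.x j :=
    (F.mem (star a) i j).1
  have h3 : star (F.x i) * star a * F.x j * P.e = star (F.x i) * star a * F.x j :=
    (F.mem (star a) i j).2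
  rw [h2, mul_assoc _ (P.val (F.d j)⁻¹), ← P.val_mul, inv_mul_cancel₀ (F.d0 j), P.val_one,
    ← mul_assoc (star (F.x i)), h3]

theorem star_mul_iff (a b : A) : (F.mx b)ᴴ * F.HH * F.mx a = F.HH ↔ star b * a = 1 := by
  rw [← F.mx_star, mul_assoc, ← map_mul]
  constructor
  · intro h
    have h2 : F.HI * (F.HH * F.mx (star b * a)) = F.HI * F.HH := by rw [h]
    rw [← mul_assoc, F.HI_HH, one_mul] at h2
    exact F.mx.injective (by rw [h2, map_one])
  · intro h
    rw [h, map_one, mul_one]

theorem isAnisotropic (hA : ∀ x : A, star x * x = 0 → x = 0) :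
    P011S.IsAnisotropicForm F.HH := by
  refine ⟨F.HH_star, fun v hv => ?_⟩
  have h1 : star (∑ i, F.x i * P.val (v i)) * (∑ i, F.x i * P.val (v i)) =
      P.val (star v ⬝ᵥ (F.HH *ᵥ v)) := by
    rw [star_sum, Finset.sum_mul, dotProduct, P.val_sum]
    refine Finset.sum_congr rfl fun i _ => ?_
    rw [Finset.mul_sum, Finset.sum_eq_single i]
    · rw [HH, Matrix.mulVec_diagonal, Pi.star_apply, P.val_mul, P.val_mul, P.val_star, F.hd,
        star_mul]
      simp only [mul_assoc]
    · intro j _ hj
      rw [star_mul, mul_assoc, ← mul_assoc (star (F.x i)), F.orth i j (Ne.symm hj), zero_mul,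
        mul_zero]
    · intro h
      exact absurd (Finset.mem_univ _) h
  have h2 := hA _ (by rw [h1, hv]; rfl)
  ext j
  have h3 : star (F.x j) * (∑ i, F.x i * P.val (v i)) = P.val (F.d j * v j) := by
    rw [Finset.mul_sum, Finset.sum_eq_single j]
    · exact F.d_val j (v j)
    · intro i _ hi
      rw [← mul_assoc, F.orth j i (Ne.symm hi), zero_mul]
    · intro h
      exact absurd (Finset.mem_univ _) h
  rw [h2, mul_zero] at h3
  have h4 : F.d j * v j = 0 := P.val_inj h3.symm
  exact (mul_eq_zero.mp h4).resolve_left (F.d0 j)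

end Fm

end Vale.Agent.P011.H984
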