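import Vale.Agent.P011.H984.Full.Cor
import Vale.Agent.P011.H268.Nrd

/-!
# Algebras with anisotropic involution are matrix algebras with the adjoint involution of a
diagonal hermitian form
-/

open Module Matrix

set_option linter.unusedSectionVars false

namespace Vale.Agent.P011.H984

open Vale.Agent.P011.H738 (SUA Anis)
open Vale.Agent.P011S

section exist

variable {K A : Type} [Field K] [Ring A] [StarRing A] [Algebra K A]

/-- An orthogonal family of nonzero vectors. -/
structure Og (P : Pj A) (m : ℕ) (x : Fin m → A) : Prop where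
  xe : ∀ i, x i * P.e = x i
  ne : ∀ i, x i ≠ 0
  orth : ∀ i j, i ≠ j → star (x i) * x j = 0

variable {P : Pj A} {m : ℕ} {x : Fin m → A}

theorem Og.mem (h : Og P m x) (i : Fin m) : P.e * (star (x i) * x i) = star (x i) * x i ∧
    star (x i) * x i * P.e = star (x i) * x i := by
  constructor
  · have h1 := congrArg star (h.xe i)
    rw [star_mul, P.se] at h1
    rw [← mul_assoc, h1]
  · rw [mul_assoc, h.xe]

/-- The values of the form. -/
def Og.d (h : Og P m x) (i : Fin m) : P.Cr := P.cr (star (x i) * x i) (h.mem i)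

theorem Og.d_ne (han : ∀ x : A, star x * x = 0 → x = 0) (h : Og P m x) (i : Fin m) :
    h.d i ≠ 0 := fun h0 => h.ne i (han _ (congrArg P.val h0))

/-- The sum of the projections on the members of the family. -/
noncomputable def Og.q (h : Og P m x) : A := ∑ i, x i * P.val (h.d i)⁻¹ * star (x i)

theorem Og.star_q (h : Og P m x) : star h.q = h.q := by
  rw [Og.q, star_sum]
  refine Finset.sum_congr rfl fun i _ => ?_
  rw [star_mul, star_mul, star_star, ← P.val_star, star_inv₀]
  have h1 : star (h.d i) = h.d i := P.val_inj (by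
    rw [P.val_star]
    change star (star (x i) * x i) = star (x i) * x i
    rw [star_mul, star_star])
  rw [h1, mul_assoc]

theorem Og.q_mul (han : ∀ x : A, star x * x = 0 → x = 0) (h : Og P m x) (j : Fin m) :
    h.q * x j = x j := by
  rw [Og.q, Finset.sum_mul, Finset.sum_eq_single j]
  · rw [mul_assoc]
    change x j * P.val (h.d j)⁻¹ * P.val (h.d j) = x j
    rw [mul_assoc, ← P.val_mul, inv_mul_cancel₀ (h.d_ne han j), P.val_one, h.xe]
  · intro i _ hi
    rw [mul_assoc, h.orth i j hi, mul_zero]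
  · intro h
    exact absurd (Finset.mem_univ _) h

theorem Og.indep (han : ∀ x : A, star x * x = 0 → x = 0) (h : Og P m x) :
    LinearIndependent K x := by
  rw [Fintype.linearIndependent_iff]
  intro g hg j
  have h1 : star (x j) * ∑ i, g i • x i = g j • (star (x j) * x j) := by
    rw [Finset.mul_sum, Finset.sum_eq_single j]
    · rw [mul_smul_comm]
    · intro i _ hi
      rw [mul_smul_comm, h.orth j i (Ne.symm hi), smul_zero]
    · intro h
      exact absurd (Finset.mem_univ _) h
  rw [hg, mul_zero] at h1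
  rcases smul_eq_zero.mp h1.symm with h2 | h2
  · exact h2
  · exact absurd (han _ h2) (h.ne j)

/-- A larger family. -/
theorem Og.extend [IsSimpleRing A] (han : ∀ x : A, star x * x = 0 → x = 0) (h : Og P m x)
    (hq : h.q ≠ 1) : ∃ y : Fin (m + 1) → A, Og P (m + 1) y := by
  -- the two-sided ideal annihilated by `1 - q`
  obtain ⟨a, ha⟩ : ∃ a : A, (1 - h.q) * a * P.e ≠ 0 := by
    by_contra hcon
    push Not at hcon
    have htop : TwoSidedIdeal.span {P.e} = ⊤ := by
      rcases eq_bot_or_eq_top (TwoSidedIdeal.span {P.e}) with h1 | h1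
      · exact absurd ((TwoSidedIdeal.mem_bot A).mp
          (h1 ▸ TwoSidedIdeal.subset_span (Set.mem_singleton P.e))) P.ne
      · exact h1
    have h1 : ∀ z : A, ∀ a : A, z ∈ TwoSidedIdeal.span {P.e} → (1 - h.q) * a * z = 0 := by
      intro z a hz
      rw [TwoSidedIdeal.mem_span_iff_mem_addSubgroup_closure] at hz
      induction hz using AddSubgroup.closure_induction with
      | mem z hz =>
        obtain ⟨b, hb, c, -, rfl⟩ := hz
        obtain ⟨b', -, e', he', rfl⟩ := hb
        rw [Set.mem_singleton_iff] at he'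
        subst he'
        change (1 - h.q) * a * (b' * P.e * c) = 0
        have h2 := hcon (a * b')
        calc (1 - h.q) * a * (b' * P.e * c) = (1 - h.q) * (a * b') * P.e * c := by
              simp only [mul_assoc]
          _ = 0 := by rw [h2, zero_mul]
      | zero => rw [mul_zero]
      | add y z _ _ hy hz => rw [mul_add, hy, hz, add_zero]
      | neg y _ hy => rw [mul_neg, hy, neg_zero]
    have h2 := h1 1 1 (htop ▸ trivial)
    rw [mul_one, mul_one, sub_eq_zero] at h2
    exact hq h2.symm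
  have hs : star (1 - h.q) = 1 - h.q := by rw [star_sub, star_one, h.star_q]
  have hqx : ∀ i, (1 - h.q) * x i = 0 := fun i => by rw [sub_mul, one_mul, h.q_mul han, sub_self]
  have hxq : ∀ i, star (x i) * (1 - h.q) = 0 := fun i => by
    have := congrArg star (hqx i)
    rwa [star_mul, hs, star_zero] at this
  refine ⟨Fin.snoc x ((1 - h.q) * a * P.e), ⟨fun i => ?_, fun i => ?_, fun i j hij => ?_⟩⟩
  · induction i using Fin.lastCases with
    | last => rw [Fin.snoc_last, mul_assoc, P.ee]
    | cast i => rw [Fin.snoc_castSucc, h.xe]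
  · induction i using Fin.lastCases with
    | last => rw [Fin.snoc_last]; exact ha
    | cast i => rw [Fin.snoc_castSucc]; exact h.ne i
  · induction i using Fin.lastCases with
    | last =>
      induction j using Fin.lastCases with
      | last => exact absurd rfl hij
      | cast j =>
        rw [Fin.snoc_last, Fin.snoc_castSucc, star_mul, star_mul, hs, mul_assoc, mul_assoc, hqx,
          mul_zero, mul_zero]
    | cast i =>
      induction j using Fin.lastCases with
      | last => rw [Fin.snoc_last, Fin.snoc_castSucc, ← mul_assoc, ← mul_assoc, hxq, zero_mul,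
          zero_mul]
      | cast j =>
        rw [Fin.snoc_castSucc, Fin.snoc_castSucc]
        exact h.orth i j fun h1 => hij (by rw [h1])

variable (K) in
/-- The frame exists. -/
theorem exists_fm [FiniteDimensional K A] [IsSimpleRing A]
    (han : ∀ x : A, star x * x = 0 → x = 0) (P : Pj A) : ∃ m, Nonempty (Fm P m) := by
  by_contra hcon
  push Not at hcon
  have h1 : ∀ m, ∃ x : Fin m → A, Og P m x := by
    intro m
    induction m with
    | zero => exact ⟨Fin.elim0, ⟨fun i => i.elim0, fun i => i.elim0, fun i => i.elim0⟩⟩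
    | succ m ih =>
      obtain ⟨x, hx⟩ := ih
      refine hx.extend han fun hq => ?_
      refine (hcon m).false ⟨x, hx.xe, hx.d, fun i => rfl, hx.d_ne han, hx.orth, hq⟩
  obtain ⟨x, hx⟩ := h1 (finrank K A + 1)
  have h2 := (hx.indep (K := K) han).fintype_card_le_finrank
  rw [Fintype.card_fin] at h2
  omega

/-- A minimal projection exists. -/
theorem exists_pj [Nontrivial A] [FiniteDimensional K A]
    (han : ∀ x : A, star x * x = 0 → x = 0) : Nonempty (Pj A) := by
  have hart : IsArtinianRing A := isArtinian_of_tower K inferInstance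
  obtain ⟨I, hI, -⟩ := (eq_bot_or_exists_atom_le (⊤ : Submodule A A)).resolve_left
    (fun h => top_ne_bot h)
  obtain ⟨e, -, h⟩ := H401.exists_rankOne han I hI
  exact ⟨⟨e, h.idem, h.star_eq, h.ne, h.inv⟩⟩

end exist

namespace Fm

section alg

variable {k K A : Type} [Field k] [Field K] [StarRing K] [Ring A] [StarRing A] [Algebra k K]
  [Algebra k A] [Algebra K A] [IsScalarTower k K A] [StarModule K A] {n d m : ℕ} {P : Pj A}
  (F : Fm P m)

instance instTower : IsScalarTower k K P.Cr :=
  ⟨fun a b x => P.val_inj (smul_assoc a b (P.val x))⟩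

instance instStarModule : StarModule K P.Cr :=
  ⟨fun c x => P.val_inj (star_smul c (P.val x))⟩

include F in
theorem finrank_eq : finrank K A = m ^ 2 * finrank K P.Cr := by
  rw [(F.mxA K).toLinearEquiv.finrank_eq, finrank_matrix, Fintype.card_fin, sq]

include F in
theorem pos [Nontrivial A] : 0 < m := by
  rcases Nat.eq_zero_or_pos m with h | h
  · subst h
    exfalso
    have h1 := F.sum
    rw [Finset.univ_eq_empty, Finset.sum_empty] at h1
    exact zero_ne_one h1
  · exact h

include F in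
theorem exists_deg [Nontrivial A] (h : finrank K A = n ^ 2) :
    ∃ d, n = m * d ∧ finrank K P.Cr = d ^ 2 := by
  have h1 := F.finrank_eq (K := K)
  rw [h] at h1
  have h2 : m ∣ n := (Nat.pow_dvd_pow_iff (by norm_num : (2 : ℕ) ≠ 0)).mp ⟨_, h1⟩
  obtain ⟨d, rfl⟩ := h2
  refine ⟨d, rfl, ?_⟩
  rw [mul_pow] at h1
  exact (Nat.eq_of_mul_eq_mul_left (pow_pos F.pos 2) h1).symm

include F in
theorem isCentral [Nontrivial A] (h : Algebra.IsCentral K A) : Algebra.IsCentral K P.Cr := by
  refine ⟨fun x hx => ?_⟩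
  have hx' : ∀ y : P.Cr, y * x = x * y := fun y => Subalgebra.mem_center_iff.mp hx y
  obtain ⟨M, hM⟩ : ∃ M, M = Matrix.scalar (Fin m) x := ⟨_, rfl⟩
  have hcomm : ∀ N : Matrix (Fin m) (Fin m) P.Cr, N * M = M * N := by
    intro N
    rw [hM]
    exact ((Matrix.scalar_commute x (fun y => (hx' y).symm) N).eq).symm
  have h1 : F.mx.symm M ∈ Subalgebra.center K A := by
    rw [Subalgebra.mem_center_iff]
    intro a
    apply F.mx.injective
    rw [map_mul, map_mul, F.mx.apply_symm_apply, hcomm]
  have h2 := h.out h1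
  rw [Algebra.mem_bot] at h2 ⊢
  obtain ⟨c, hc⟩ := h2
  refine ⟨c, ?_⟩
  have h3 : M = c • (1 : Matrix (Fin m) (Fin m) P.Cr) := by
    rw [← F.mx.apply_symm_apply M, ← hc, Algebra.algebraMap_eq_smul_one, F.mx_smul, map_one]
  have h4 : x = M ⟨0, F.pos⟩ ⟨0, F.pos⟩ := by
    rw [hM, Matrix.scalar_apply, Matrix.diagonal_apply_eq]
  rw [h4, h3, Matrix.smul_apply, Matrix.one_apply_eq, Algebra.algebraMap_eq_smul_one]

include F in
/-- If there is one vector only, `A` is a division algebra. -/
theorem two_le [Nontrivial A] (hdiv : ∃ x : A, x ≠ 0 ∧ ¬ IsUnit x) : 2 ≤ m := by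
  by_contra hm
  have hm1 : m = 1 := by
    have := F.pos
    omega
  subst hm1
  obtain ⟨x, hx, hxu⟩ := hdiv
  have h1 : F.mx x ≠ 0 := fun h => hx ((map_eq_zero_iff F.mx F.mx.injective).mp h)
  have h2 : F.mx x 0 0 ≠ 0 := by
    intro h
    apply h1
    ext i j
    rw [Subsingleton.elim i 0, Subsingleton.elim j 0, h, Matrix.zero_apply]
  have h3 : IsUnit (F.mx x) := by
    refine ⟨⟨F.mx x, Matrix.of fun _ _ => (F.mx x 0 0)⁻¹, ?_, ?_⟩, rfl⟩
    · ext i j
      rw [Subsingleton.elim i 0, Subsingleton.elim j 0, Matrix.mul_apply, Fin.sum_univ_one,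
        Matrix.of_apply, mul_inv_cancel₀ h2, Matrix.one_apply_eq]
    · ext i j
      rw [Subsingleton.elim i 0, Subsingleton.elim j 0, Matrix.mul_apply, Fin.sum_univ_one,
        Matrix.of_apply, inv_mul_cancel₀ h2, Matrix.one_apply_eq]
  obtain ⟨u, hu⟩ := h3
  apply hxu
  refine ⟨(Units.mapEquiv (F.mx : A ≃* Matrix (Fin 1) (Fin 1) P.Cr)).symm u, ?_⟩
  apply F.mx.injective
  rw [← hu]
  exact F.mx.apply_symm_apply _

end alg

section iso

variable {K A Ω Ω' : Type} [Field K] [Ring A] [StarRing A] [Algebra K A]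
  [Field Ω] [Algebra K Ω] [Field Ω'] [Algebra K Ω'] {n d m : ℕ} {P : Pj A} (F : Fm P m)

/-- The splitting of `A` given by a splitting of the corner. -/
noncomputable def spl (f' : P.Cr →ₐ[K] Matrix (Fin d) (Fin d) Ω') :
    A →ₐ[K] Matrix (Fin m × Fin d) (Fin m × Fin d) Ω' :=
  (Matrix.compAlgEquiv (Fin m) (Fin d) Ω' K).toAlgHom.comp
    (f'.mapMatrix.comp (F.mxA K).toAlgHom)

theorem det_spl (f' : P.Cr →ₐ[K] Matrix (Fin d) (Fin d) Ω') (a : A) :
    (F.spl f' a).det = redNorm f' (Fin m) (F.mx a) := rfl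

theorem det_iff [FiniteDimensional K A] [Algebra.IsCentral K A] [IsSimpleRing A]
    (f : A →ₐ[K] Matrix (Fin n) (Fin n) Ω) (f' : P.Cr →ₐ[K] Matrix (Fin d) (Fin d) Ω')
    (hn : 0 < n) (hA : finrank K A = n ^ 2) (hnd : n = m * d) (a : A) :
    (f a).det = 1 ↔ redNorm f' (Fin m) (F.mx a) = 1 := by
  obtain ⟨M, _, i, j, hij⟩ := H268.exists_common K Ω Ω'
  let e : Fin m × Fin d ≃ Fin n := finProdFinEquiv.trans (finCongr hnd.symm)
  let g : A →ₐ[K] Matrix (Fin n) (Fin n) Ω' :=
    (Matrix.reindexAlgEquiv K Ω' e).toAlgHom.comp (F.spl f')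
  have h1 : (g a).det = redNorm f' (Fin m) (F.mx a) := by
    rw [← F.det_spl]
    exact Matrix.det_reindex_self e (F.spl f' a)
  have h2 := H268.det_compare_gen hn hA f g a i j hij
  rw [h1] at h2
  constructor
  · intro h
    apply j.injective
    rw [← h2, h, map_one, map_one]
  · intro h
    apply i.injective
    rw [h2, h, map_one, map_one]

/-- The special unitary group as a preimage. -/
theorem mem_iff [FiniteDimensional K A] [Algebra.IsCentral K A] [IsSimpleRing A]
    (f : A →ₐ[K] Matrix (Fin n) (Fin n) Ω) (f' : P.Cr →ₐ[K] Matrix (Fin d) (Fin d) Ω')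
    (hn : 0 < n) (hA : finrank K A = n ^ 2) (hnd : n = m * d) (a : Aˣ) :
    Units.mapEquiv (F.mx : A ≃* Matrix (Fin m) (Fin m) P.Cr) a ∈ SU f' F.HH ↔ a ∈ SUA f := by
  have h1 : Units.mapEquiv (F.mx : A ≃* Matrix (Fin m) (Fin m) P.Cr) a ∈ SU f' F.HH ↔
      (F.mx (a : A))ᴴ * F.HH * F.mx (a : A) = F.HH ∧ redNorm f' (Fin m) (F.mx (a : A)) = 1 :=
    Iff.rfl
  have h2 : a ∈ SUA f ↔ (a : A) * star (a : A) = 1 ∧ (f (a : A)).det = 1 := Iff.rfl
  rw [h1, h2, F.star_mul_iff, F.det_iff f f' hn hA hnd]
  refine and_congr_left fun _ => ⟨fun h => ?_, fun h => ?_⟩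
  · have h3 : star (a : A) = ((a⁻¹ : Aˣ) : A) := Units.eq_inv_of_mul_eq_one_right h
    rw [h3, Units.mul_inv]
  · have h3 : star (a : A) = ((a⁻¹ : Aˣ) : A) := by
      rw [← Units.mul_right_inj a, h, Units.mul_inv]
    rw [h3, Units.inv_mul]

/-- **The isomorphism of the special unitary groups.** -/
noncomputable def iso [FiniteDimensional K A] [Algebra.IsCentral K A] [IsSimpleRing A]
    (f : A →ₐ[K] Matrix (Fin n) (Fin n) Ω) (f' : P.Cr →ₐ[K] Matrix (Fin d) (Fin d) Ω')
    (hn : 0 < n) (hA : finrank K A = n ^ 2) (hnd : n = m * d) : SUA f ≃* SU f' F.HH where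
  toFun g := ⟨Units.mapEquiv (F.mx : A ≃* Matrix (Fin m) (Fin m) P.Cr) g.1,
    (F.mem_iff f f' hn hA hnd g.1).mpr g.2⟩
  invFun g := ⟨(Units.mapEquiv (F.mx : A ≃* Matrix (Fin m) (Fin m) P.Cr)).symm g.1,
    (F.mem_iff f f' hn hA hnd _).mp (by rw [MulEquiv.apply_symm_apply]; exact g.2)⟩
  left_inv g := Subtype.ext (MulEquiv.symm_apply_apply _ _)
  right_inv g := Subtype.ext (MulEquiv.apply_symm_apply _ _)
  map_mul' g h := Subtype.ext (map_mul _ _ _)

end iso

end Fm

end Vale.Agent.P011.H984
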